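import Vale.Agent.N265.Main

/-!
# The stable Morse form of the Arnold conjecture fails by a central binomial coefficient

For every `n ≥ 3` there is a connected closed symplectic manifold `M` of dimension `2 n` with a
nondegenerate Hamiltonian flow whose time-one map has `N ≤ 2 ^ (n + 1)` fixed points in all, while
`SM(M) ≥ 2 ^ (n + 1) + 4 C(n - 2, ⌊(n - 2) / 2⌋)`: at most `16` against at least `20` for `n = 3`.
-/

open Set Manifold Vale.Agent.P265.Loc Vale.Agent.P265W27
open scoped ContDiff

namespace Vale.Agent.Results.P265.A0CentralBinomial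

theorem result :
    ∀ n : ℕ, 3 ≤ n →
      ∃ (M : Type) (_ : TopologicalSpace M) (_ : T2Space M) (_ : CompactSpace M)
        (_ : ConnectedSpace M) (_ : ChartedSpace (EuclideanSpace ℝ (Fin (2 * n))) M)
        (_ : IsManifold 𝓘(ℝ, EuclideanSpace ℝ (Fin (2 * n))) ∞ M)
        (om : FormField (EuclideanSpace ℝ (Fin (2 * n))) M) (H : ℝ → M → ℝ) (φ : ℝ → M → M)
        (N s : ℕ), IsSymplectic om ∧ IsHamiltonianFlow om H φ ∧
          NondegFixedPoints (EuclideanSpace ℝ (Fin (2 * n))) (φ 1) ∧
          {x | φ 1 x = x}.encard = N ∧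
          IsLeast (stableCounts (EuclideanSpace ℝ (Fin (2 * n))) M) s ∧
          N ≤ 2 ^ (n + 1) ∧ 2 ^ (n + 1) + 4 * (n - 2).choose ((n - 2) / 2) ≤ s :=
  Vale.Agent.N265.counterexample

end Vale.Agent.Results.P265.A0CentralBinomial
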