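import Vale.Agent.N265X.Main

/-!
# The stable Morse form of the Arnold conjecture fails on closed Kähler manifolds

For every `n ≥ 3` there is a connected closed Kähler manifold `M` of complex dimension `n` with
a nondegenerate Hamiltonian flow whose time-one map has `N ≤ 2 ^ (n + 1)` fixed points in all,
while `SM(M) ≥ 2 ^ (n + 1) + 2 ^ ⌊(n - 2) / 4⌋`.
-/

open Set Manifold Vale.Agent.N265X
open scoped ContDiff

namespace Vale.Agent.Results.P265.A0Kaehler

theorem result :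
    ∀ n : ℕ, 3 ≤ n →
      ∃ (M : Type) (_ : TopologicalSpace M) (_ : T2Space M) (_ : CompactSpace M)
        (_ : ConnectedSpace M) (_ : ChartedSpace (EuclideanSpace ℂ (Fin n)) M)
        (_ : IsManifold 𝓘(ℂ, EuclideanSpace ℂ (Fin n)) ω M)
        (_ : IsManifold 𝓘(ℝ, EuclideanSpace ℂ (Fin n)) ∞ M)
        (σ : TwoForm (EuclideanSpace ℂ (Fin n)) M) (H : UnitAddCircle → M → ℝ) (φ : ℝ → M → M),
        IsKaehler σ ∧ IsHamFlow σ H φ ∧ Nondeg (EuclideanSpace ℂ (Fin n)) (φ 1) ∧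
          {x | φ 1 x = x}.encard ≤ 2 ^ (n + 1) ∧
          2 ^ (n + 1) + 2 ^ ((n - 2) / 4) ≤ SM (EuclideanSpace ℂ (Fin n)) M :=
  kaehler

end Vale.Agent.Results.P265.A0Kaehler
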